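import Vale.Agent.P347.Bdl.B1

/-! P347: realisation of the proximal chain as an algorithm, for `C^2` potentials (helper300).

The library (`Realizes`, `Comp`) is the one of the old answer, with the class `V_d` replaced by all
`C^2` functions. -/

set_option linter.style.haveILetI false

open MeasureTheory Filter Set
open scoped RealInnerProductSpace

namespace Vale.Agent.P347.H300

variable {d : ℕ}

lemma measurable_oracle {V : Eu d → ℝ} (h1 : ContDiff ℝ 2 V) : Measurable (oracle V) := by
  have h2 : Continuous (gradient V) := by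
    have h3 : Continuous (fderiv ℝ V) := h1.continuous_fderiv (by norm_num)
    exact (InnerProductSpace.toDual ℝ (Eu d)).symm.continuous.comp h3
  exact h1.continuous.measurable.prodMk h2.measurable

lemma measurable_answers {q : ℕ} (A : Algo d q) {V : Eu d → ℝ} (hV : ContDiff ℝ 2 V)
    (k : ℕ) (hk : k ≤ q) :
    letI := A.mΩ
    Measurable (fun ω => A.answers V ω k hk) := by
  letI := A.mΩ
  induction k with
  | zero =>
    show Measurable (fun _ : A.Ω => (Fin.elim0 : Fin 0 → ℝ × Eu d))
    exact measurable_const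
  | succ k ih =>
    have h := ih (Nat.le_of_succ_le hk)
    refine measurable_pi_iff.2 fun j => ?_
    refine Fin.lastCases ?_ (fun j => ?_) j
    · simp only [Algo.answers, Fin.snoc_last]
      exact (measurable_oracle hV).comp
        ((A.query_meas ⟨k, hk⟩).comp (measurable_id.prodMk h))
    · simp only [Algo.answers, Fin.snoc_castSucc]
      exact (measurable_pi_apply j).comp h

/-- `Λ V` is the law of the state (an element of `S`) of a procedure which made `q` queries. -/
def Realizes (d q : ℕ) {S : Type} [MeasurableSpace S] (Λ : (Eu d → ℝ) → Measure S) : Prop :=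
  ∃ (A : Algo d q) (g : A.Ω × (Fin q → ℝ × Eu d) → S),
    (letI := A.mΩ; Measurable g) ∧ ∀ V : Eu d → ℝ, ContDiff ℝ 2 V →
      Λ V = (letI := A.mΩ; A.P.map (fun ω => g (ω, A.answers V ω q le_rfl)))

variable {S S' S'' : Type} [MeasurableSpace S] [MeasurableSpace S'] [MeasurableSpace S'']

lemma Realizes.congr {q : ℕ} {Λ Λ' : (Eu d → ℝ) → Measure S} (h : Realizes d q Λ)
    (h' : ∀ V : Eu d → ℝ, ContDiff ℝ 2 V → Λ' V = Λ V) : Realizes d q Λ' := by
  obtain ⟨A, g, hg, hA⟩ := h
  exact ⟨A, g, hg, fun V hV => (h' V hV).trans (hA V hV)⟩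

lemma measurable_state {q : ℕ} (A : Algo d q) {g : A.Ω × (Fin q → ℝ × Eu d) → S}
    (hg : letI := A.mΩ; Measurable g) {V : Eu d → ℝ} (hV : ContDiff ℝ 2 V) :
    letI := A.mΩ
    Measurable (fun ω => g (ω, A.answers V ω q le_rfl)) := by
  letI := A.mΩ
  exact hg.comp (measurable_id.prodMk (measurable_answers A hV q le_rfl))

lemma Realizes.prob {q : ℕ} {Λ : (Eu d → ℝ) → Measure S} (h : Realizes d q Λ) {V : Eu d → ℝ}
    (hV : ContDiff ℝ 2 V) : IsProbabilityMeasure (Λ V) := by
  obtain ⟨A, g, hg, hA⟩ := h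
  rw [hA V hV]
  letI := A.mΩ
  have := A.prob
  exact Measure.isProbabilityMeasure_map (measurable_state A hg hV).aemeasurable

/-- An algorithm from a realised law on the space itself. -/
lemma Realizes.algo {q : ℕ} {Λ : (Eu d → ℝ) → Measure (Eu d)} (h : Realizes d q Λ) :
    ∃ A : Algo d q, ∀ V : Eu d → ℝ, ContDiff ℝ 2 V → A.law V = Λ V := by
  obtain ⟨A, g, hg, hA⟩ := h
  refine ⟨A.withOut g hg, fun V hV => ?_⟩
  rw [hA V hV]
  letI := A.mΩ
  exact congrArg (fun F : A.Ω → Eu d => A.P.map F) (funext fun ω =>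
    congrArg (fun a => g (ω, a)) (A.withOut_answers g hg V ω q le_rfl))

lemma realizes_start (s0 : S) : Realizes d 0 (fun _ => Measure.dirac s0) := by
  refine ⟨⟨Unit, inferInstance, inferInstance, Measure.dirac (), inferInstance,
    fun k => k.elim0, fun k => k.elim0, fun _ => 0, measurable_const⟩, fun _ => s0,
    measurable_const, fun V hV => ?_⟩
  simp

lemma Realizes.map {q : ℕ} {Λ : (Eu d → ℝ) → Measure S} (h : Realizes d q Λ) {f : S → S'}
    (hf : Measurable f) : Realizes d q (fun V => (Λ V).map f) := by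
  obtain ⟨A, g, hg, hA⟩ := h
  refine ⟨A, fun x => f (g x), ?_, fun V hV => ?_⟩
  · letI := A.mΩ
    exact hf.comp hg
  · show (Λ V).map f = _
    rw [hA V hV]
    letI := A.mΩ
    rw [Measure.map_map hf (measurable_state A hg hV)]
    rfl

lemma Realizes.noise {q : ℕ} {Λ : (Eu d → ℝ) → Measure S} (h : Realizes d q Λ) (W : Type)
    [mW : MeasurableSpace W] [sW : StandardBorelSpace W] (ν : Measure W)
    [hν : IsProbabilityMeasure ν] : Realizes d q (fun V => (Λ V).prod ν) := by
  obtain ⟨A, g, hg, hA⟩ := h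
  refine ⟨A.addNoise W ν, fun x => (g (x.1.1, x.2), x.1.2), ?_, fun V hV => ?_⟩
  · letI := A.mΩ
    exact (hg.comp ((measurable_fst.comp measurable_fst).prodMk measurable_snd)).prodMk
      (measurable_snd.comp measurable_fst)
  · show (Λ V).prod ν = _
    rw [hA V hV]
    letI := A.mΩ
    haveI := A.prob
    have h1 := Measure.map_prod_map A.P ν (measurable_state A hg hV) (measurable_id (α := W))
    rw [Measure.map_id] at h1
    rw [h1]
    exact congrArg (fun F : A.Ω × W → S × W => (A.P.prod ν).map F) (funext fun ω =>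
      congrArg (fun a => (g (ω.1, a), ω.2)) (A.addNoise_answers W ν V ω q le_rfl).symm)

lemma Realizes.query {q : ℕ} {Λ : (Eu d → ℝ) → Measure S} (h : Realizes d q Λ) {φ : S → Eu d}
    (hφ : Measurable φ) : Realizes d (q + 1) (fun V => (Λ V).map (fun s => (s, oracle V (φ s)))) := by
  obtain ⟨A, g, hg, hA⟩ := h
  refine ⟨A.addQuery g hg φ hφ, fun x => (g (x.1, Fin.init x.2), x.2 (Fin.last q)), ?_,
    fun V hV => ?_⟩
  · letI := A.mΩ
    refine (hg.comp (measurable_fst.prodMk ?_)).prodMk
      ((measurable_pi_apply _).comp measurable_snd)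
    exact measurable_pi_iff.2 fun j => (measurable_pi_apply _).comp measurable_snd
  · show (Λ V).map (fun s => (s, oracle V (φ s))) = _
    rw [hA V hV]
    letI := A.mΩ
    have hm : Measurable (fun s : S => (s, oracle V (φ s))) :=
      measurable_id.prodMk ((measurable_oracle hV).comp hφ)
    rw [Measure.map_map hm (measurable_state A hg hV)]
    refine congrArg (fun F : A.Ω → S × (ℝ × Eu d) => A.P.map F) (funext fun ω => ?_)
    have h1 := A.addQuery_answers_last g hg φ hφ V ω
    have h2 : (fun a : Fin (q + 1) → ℝ × Eu d => (g (ω, Fin.init a), a (Fin.last q)))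
        ((A.addQuery g hg φ hφ).answers V ω (q + 1) le_rfl) =
        (g (ω, A.answers V ω q le_rfl), oracle V (φ (g (ω, A.answers V ω q le_rfl)))) := by
      rw [h1]
      simp only [Fin.snoc_last, Fin.init_snoc]
    exact h2.symm

/-! ### computations with a fixed number of queries -/

/-- The map `R V` can be computed with `q` queries. -/
def Comp (d q : ℕ) {S S' : Type} [MeasurableSpace S] [MeasurableSpace S']
    (R : (Eu d → ℝ) → S → S') : Prop :=
  (∀ V : Eu d → ℝ, ContDiff ℝ 2 V → Measurable (R V)) ∧ ∀ (q0 : ℕ) (Λ : (Eu d → ℝ) → Measure S),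
    Realizes d q0 Λ → Realizes d (q0 + q) (fun V => (Λ V).map (R V))

lemma comp_zero {f : S → S'} (hf : Measurable f) : Comp d 0 (fun _ => f) :=
  ⟨fun _ _ => hf, fun _ _ h => h.map hf⟩

lemma Comp.trans {q1 q2 : ℕ} {R1 : (Eu d → ℝ) → S → S'} {R2 : (Eu d → ℝ) → S' → S''}
    (h1 : Comp d q1 R1) (h2 : Comp d q2 R2) : Comp d (q1 + q2) (fun V s => R2 V (R1 V s)) := by
  refine ⟨fun V hV => (h2.1 V hV).comp (h1.1 V hV), fun q0 Λ h => ?_⟩
  have h3 := h2.2 (q0 + q1) _ (h1.2 q0 Λ h)
  rw [← Nat.add_assoc]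
  refine h3.congr fun V hV => ?_
  rw [Measure.map_map (h2.1 V hV) (h1.1 V hV)]
  rfl

/-- Apply a measurable map after the computation. -/
lemma Comp.post {q : ℕ} {R : (Eu d → ℝ) → S → S'} (h : Comp d q R) {f : S' → S''}
    (hf : Measurable f) : Comp d q (fun V s => f (R V s)) := h.trans (comp_zero hf)

/-- Apply a measurable map before the computation. -/
lemma Comp.pre {q : ℕ} {R : (Eu d → ℝ) → S' → S''} (h : Comp d q R) {f : S → S'}
    (hf : Measurable f) : Comp d q (fun V s => R V (f s)) := by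
  have h1 := (comp_zero (d := d) hf).trans h
  rwa [Nat.zero_add] at h1

lemma comp_oracle {φ : S → Eu d} (hφ : Measurable φ) :
    Comp d 1 (fun V (s : S) => (s, oracle V (φ s))) :=
  ⟨fun _ hV => measurable_id.prodMk ((measurable_oracle hV).comp hφ),
    fun _ _ h => h.query hφ⟩

/-- One gradient query. -/
lemma comp_grad {φ : S → Eu d} (hφ : Measurable φ) :
    Comp d 1 (fun V (s : S) => (s, gradient V (φ s))) :=
  (comp_oracle hφ).post (f := fun x : S × (ℝ × Eu d) => (x.1, x.2.2))
    (measurable_fst.prodMk (measurable_snd.comp measurable_snd))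

/-- `N` Markov steps, each computed with `q'` queries. -/
lemma Realizes.iter {q q' : ℕ} {Λ : (Eu d → ℝ) → Measure S} (h : Realizes d q Λ) {W : Type}
    [MeasurableSpace W] [StandardBorelSpace W] (ν : Measure W) [IsProbabilityMeasure ν]
    {U : (Eu d → ℝ) → S × W → S} (hU : Comp d q' U) (N : ℕ) :
    ∃ Λ' : (Eu d → ℝ) → Measure S, Realizes d (q + q' * N) Λ' ∧ ∀ V : Eu d → ℝ, ContDiff ℝ 2 V →
      ∀ f : S → ℝ, Measurable f → (∃ C, ∀ x, |f x| ≤ C) →
        ∫ x, f x ∂(Λ' V) = ∫ x, (fun F s => ∫ w, F (U V (s, w)) ∂ν)^[N] f x ∂(Λ V) := by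
  induction N with
  | zero => exact ⟨Λ, h, fun V hV f hf bf => rfl⟩
  | succ N ih =>
    obtain ⟨Λ', h1, h2⟩ := ih
    refine ⟨fun V => ((Λ' V).prod ν).map (U V), ?_, fun V hV f hf bf => ?_⟩
    · have h3 := hU.2 _ _ (h1.noise W ν)
      have h4 : q + q' * (N + 1) = q + q' * N + q' := by ring
      rw [h4]
      exact h3
    · haveI := h1.prob hV
      rw [integral_op (Λ' V) ν (hU.1 V hV) hf bf]
      have h3 := op_bm ν (hU.1 V hV) hf bf
      rw [h2 V hV _ h3.1 h3.2, Function.iterate_succ_apply]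

end Vale.Agent.P347.H300
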