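import Vale.Agent.P347.H300.Lib
import Vale.Agent.P347.H941.KDefs

/-! P347, `K.M2`: the proximal chain with the base algorithm inside is an algorithm with
`N (n₀ + 1 + q)` queries (helper300). -/

set_option linter.style.haveILetI false

open MeasureTheory Filter Set
open scoped RealInnerProductSpace

namespace Vale.Agent.P347

namespace H300

open K

variable {d q : ℕ} {S S' : Type} [MeasurableSpace S] [MeasurableSpace S']

lemma Comp.congr {R R' : (Eu d → ℝ) → S → S'} (h : Comp d q R)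
    (h' : ∀ V : Eu d → ℝ, ContDiff ℝ 2 V → ∀ s, R' V s = R V s) : Comp d q R' := by
  refine ⟨fun V hV => ?_, fun q0 Λ hΛ => (h.2 q0 Λ hΛ).congr fun V hV => ?_⟩
  · rw [funext (h' V hV)]; exact h.1 V hV
  · rw [funext (h' V hV)]

/-- gradient descent -/
theorem comp_gd (W : Type) [MeasurableSpace W] (κ : ℝ) (n : ℕ) :
    Comp d n (fun V (x : Eu d × W) => (x, gd V κ x.1 n)) := by
  induction n with
  | zero => exact comp_zero (measurable_id.prodMk measurable_fst)
  | succ n ih =>
    have h1 := comp_grad (d := d) (S := (Eu d × W) × Eu d) (φ := fun s => s.2) measurable_snd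
    have h2 := (ih.trans h1).post (f := fun s : ((Eu d × W) × Eu d) × Eu d =>
      (s.1.1, s.1.2 - (1 / (2 * κ)) • (s.2 + κ • (s.1.2 - s.1.1.1)))) (by fun_prop)
    exact h2.congr fun V _ s => rfl

/-- the answer of the oracle of the rescaled potential, from the answers of the oracle of `V` -/
noncomputable def ans (κ : ℝ) (y c : Eu d) (oc : ℝ × Eu d) (u : Eu d) (r : ℝ × Eu d) :
    ℝ × Eu d :=
  (r.1 + κ / 2 * ‖c + (√(1 + κ))⁻¹ • u - y‖ ^ 2 - oc.1 - κ / 2 * ‖c - y‖ ^ 2
    - ⟪oc.2 + κ • (c - y), (√(1 + κ))⁻¹ • u⟫,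
   (√(1 + κ))⁻¹ • (r.2 + κ • (c + (√(1 + κ))⁻¹ • u - y) - (oc.2 + κ • (c - y))))

theorem oracle_sub {V : Eu d → ℝ} (hV : ContDiff ℝ 2 V) (κ : ℝ) (y c u : Eu d) :
    oracle (sub V κ y c) u =
      ans κ y c (oracle V c) u (oracle V (c + (√(1 + κ))⁻¹ • u)) := by
  set s : ℝ := (√(1 + κ))⁻¹ with hs
  have h1 : HasFDerivAt (fun u : Eu d => c + s • u) (s • ContinuousLinearMap.id ℝ (Eu d)) u := by
    have := ((hasFDerivAt_id (𝕜 := ℝ) u).const_smul s).const_add c
    exact this
  have hVd : Differentiable ℝ V := hV.differentiable (by norm_num)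
  have h2 : HasFDerivAt (fun u : Eu d => V (c + s • u))
      ((fderiv ℝ V (c + s • u)).comp (s • ContinuousLinearMap.id ℝ (Eu d))) u :=
    (hVd (c + s • u)).hasFDerivAt.comp u h1
  have h3 := (h1.sub_const y).norm_sq
  have h4 : HasFDerivAt (fun u : Eu d => ⟪gradU V κ y c, s • u⟫)
      ((innerSL ℝ (gradU V κ y c)).comp (s • ContinuousLinearMap.id ℝ (Eu d))) u :=
    (innerSL ℝ (gradU V κ y c)).hasFDerivAt.comp u ((hasFDerivAt_id (𝕜 := ℝ) u).const_smul s)
  have h5 := (((h2.add (h3.const_mul (κ / 2))).sub_const (V c)).sub_const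
    (κ / 2 * ‖c - y‖ ^ 2)).sub h4
  have h6 : HasGradientAt (sub V κ y c)
      (s • (gradient V (c + s • u) + κ • (c + s • u - y) - gradU V κ y c)) u := by
    rw [hasGradientAt_iff_hasFDerivAt]
    refine HasFDerivAt.congr_fderiv h5 ?_
    ext v
    have e1 : ∀ x w : Eu d, fderiv ℝ V x w = ⟪gradient V x, w⟫ := fun x w => by
      unfold gradient
      rw [InnerProductSpace.toDual_symm_apply]
    simp only [InnerProductSpace.toDual_apply_apply, inner_smul_left, inner_sub_left, inner_add_left,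
      _root_.sub_apply, _root_.add_apply, _root_.smul_apply,
      ContinuousLinearMap.comp_apply, ContinuousLinearMap.id_apply, map_smul, e1, smul_eq_mul,
      innerSL_apply_apply, inner_smul_right, RCLike.conj_to_real]
    ring
  have h7 : gradient (sub V κ y c) u =
      s • (gradient V (c + s • u) + κ • (c + s • u - y) - gradU V κ y c) := h6.gradient
  unfold oracle ans
  rw [h7]
  rfl

lemma measurable_snoc {k : ℕ} {X Y : Type} [MeasurableSpace X] [MeasurableSpace Y]
    {f : X → (Fin k → Y)} {g : X → Y} (hf : Measurable f) (hg : Measurable g) :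
    Measurable (fun x => (Fin.snoc (α := fun _ => Y) (f x) (g x) : Fin (k + 1) → Y)) := by
  refine measurable_pi_iff.2 fun j => ?_
  refine Fin.lastCases ?_ (fun j => ?_) j
  · simp only [Fin.snoc_last]
    exact hg
  · simp only [Fin.snoc_castSucc]
    exact (measurable_pi_apply j).comp hf

/-- simulation of the base algorithm on the rescaled potential -/
theorem comp_sim (A : Algo d q) (κ : ℝ) (k : ℕ) (hk : k ≤ q) :
    letI := A.mΩ
    Comp d (1 + k) (fun V (x : (Eu d × Eu d) × A.Ω) =>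
      ((x, oracle V x.1.2), A.answers (sub V κ x.1.1 x.1.2) x.2 k hk)) := by
  let := A.mΩ
  induction k with
  | zero =>
    have h1 := comp_oracle (d := d) (S := (Eu d × Eu d) × A.Ω) (φ := fun x => x.1.2)
      (measurable_snd.comp measurable_fst)
    have h2 := h1.post (f := fun s : ((Eu d × Eu d) × A.Ω) × (ℝ × Eu d) =>
      (s, (Fin.elim0 : Fin 0 → ℝ × Eu d))) (measurable_id.prodMk measurable_const)
    exact h2.congr fun V _ s => rfl
  | succ k ih =>
    have ih' := ih (Nat.le_of_succ_le hk)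
    have hq := A.query_meas ⟨k, hk⟩
    have hq' : Measurable (fun s : ((((Eu d × Eu d) × A.Ω) × (ℝ × Eu d)) × (Fin k → ℝ × Eu d)) =>
        A.query ⟨k, hk⟩ (s.1.1.2, s.2)) :=
      hq.comp ((measurable_snd.comp (measurable_fst.comp measurable_fst)).prodMk measurable_snd)
    have h1 := comp_oracle (d := d)
      (S := (((Eu d × Eu d) × A.Ω) × (ℝ × Eu d)) × (Fin k → ℝ × Eu d))
      (φ := fun s => s.1.1.1.2 + (√(1 + κ))⁻¹ • A.query ⟨k, hk⟩ (s.1.1.2, s.2)) (by
        refine Measurable.add ?_ ((measurable_const_smul (√(1 + κ))⁻¹).comp hq')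
        exact measurable_snd.comp (measurable_fst.comp (measurable_fst.comp measurable_fst)))
    have h2 := (ih'.trans h1).post
      (f := fun t : ((((Eu d × Eu d) × A.Ω) × (ℝ × Eu d)) × (Fin k → ℝ × Eu d)) × (ℝ × Eu d) =>
        (t.1.1, (Fin.snoc (α := fun _ => ℝ × Eu d) t.1.2
          (ans κ t.1.1.1.1.1 t.1.1.1.1.2 t.1.1.2 (A.query ⟨k, hk⟩ (t.1.1.1.2, t.1.2)) t.2) :
            Fin (k + 1) → ℝ × Eu d))) (by
        have hm1 : Measurable (fun t : ((((Eu d × Eu d) × A.Ω) × (ℝ × Eu d)) ×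
            (Fin k → ℝ × Eu d)) × (ℝ × Eu d) => A.query ⟨k, hk⟩ (t.1.1.1.2, t.1.2)) :=
          hq'.comp measurable_fst
        refine (measurable_fst.comp measurable_fst).prodMk
          (measurable_snoc (measurable_snd.comp measurable_fst) ?_)
        have hm2 : Measurable (fun p : (Eu d × Eu d) × (ℝ × Eu d) × Eu d × (ℝ × Eu d) =>
            ans κ p.1.1 p.1.2 p.2.1 p.2.2.1 p.2.2.2) := by
          unfold ans
          fun_prop
        exact hm2.comp (((measurable_fst.comp (measurable_fst.comp (measurable_fst.comp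
          measurable_fst)))).prodMk ((measurable_snd.comp (measurable_fst.comp
          measurable_fst)).prodMk (hm1.prodMk measurable_snd))))
    refine Comp.congr h2 fun V hV s => ?_
    show _ = _
    simp only [Algo.answers]
    rw [oracle_sub hV]

/-- the inner sampler -/
theorem comp_inner (A : Algo d q) (κ : ℝ) (n₀ : ℕ) :
    letI := A.mΩ
    Comp d (n₀ + 1 + q) (fun V (x : Eu d × A.Ω) => inner A V κ n₀ x.1 x.2) := by
  letI := A.mΩ
  have h1 := comp_gd (d := d) A.Ω κ n₀
  have h2 := (comp_sim A κ q le_rfl).pre (f := fun s : (Eu d × A.Ω) × Eu d =>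
    ((s.1.1, s.2), s.1.2)) (((measurable_fst.comp measurable_fst).prodMk measurable_snd).prodMk
      (measurable_snd.comp measurable_fst))
  have h3 := (h1.trans h2).post
    (f := fun t : (((Eu d × Eu d) × A.Ω) × (ℝ × Eu d)) × (Fin q → ℝ × Eu d) =>
      t.1.1.1.2 + (√(1 + κ))⁻¹ • A.out (t.1.1.2, t.2)) (by
      refine Measurable.add ?_ ((measurable_const_smul (√(1 + κ))⁻¹).comp (A.out_meas.comp
        ((measurable_snd.comp (measurable_fst.comp measurable_fst)).prodMk measurable_snd)))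
      exact measurable_snd.comp (measurable_fst.comp (measurable_fst.comp measurable_fst)))
  rw [Nat.add_assoc]
  exact h3.congr fun V _ s => rfl

/-- one step of the chain -/
theorem comp_step (A : Algo d q) (κ : ℝ) (n₀ : ℕ) :
    letI := A.mΩ
    Comp d (n₀ + 1 + q) (fun V (x : Eu d × (Eu d × A.Ω)) => step A V κ n₀ x.1 x.2) := by
  letI := A.mΩ
  have h := (comp_inner A κ n₀).pre (f := fun x : Eu d × (Eu d × A.Ω) =>
    (x.1 + √(1 / κ) • x.2.1, x.2.2)) (by fun_prop)
  exact h.congr fun V _ s => rfl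

theorem m2 : M2 := by
  intro d q A κ n₀ _
  letI := A.mΩ
  haveI := A.sΩ
  haveI := A.prob
  have hstep := comp_step A κ n₀
  have hop : ∀ V : Eu d → ℝ, ContDiff ℝ 2 V → ∀ f : Eu d → ℝ, Measurable f →
      (∀ x, 0 ≤ f x ∧ f x ≤ 1) → Measurable (K.Sop A V κ n₀ f) ∧
        ∀ x, 0 ≤ K.Sop A V κ n₀ f x ∧ K.Sop A V κ n₀ f x ≤ 1 := by
    intro V hV f hf bf
    have hU := hstep.1 V hV
    refine ⟨(op_bm ((gam (Eu d)).prod A.P) hU hf ⟨1, fun x => by
      rw [abs_of_nonneg (bf x).1]; exact (bf x).2⟩).1, fun x => ?_⟩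
    unfold K.Sop
    refine ⟨integral_nonneg fun p => (bf _).1, ?_⟩
    have hUx : Measurable (fun p : Eu d × A.Ω => f (step A V κ n₀ x p)) :=
      hf.comp (hU.comp measurable_prodMk_left)
    have h1 : ∫ p, f (step A V κ n₀ x p) ∂((gam (Eu d)).prod A.P) ≤
        ∫ _, (1 : ℝ) ∂((gam (Eu d)).prod A.P) := by
      refine integral_mono ?_ (integrable_const _) fun p => (bf _).2
      exact Integrable.of_bound hUx.aestronglyMeasurable 1 (Eventually.of_forall fun p => by
        rw [Real.norm_eq_abs, abs_of_nonneg (bf _).1]; exact (bf _).2)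
    simpa using h1
  refine ⟨hop, fun V hV => (comp_inner A κ n₀).1 V hV, fun N => ?_⟩
  obtain ⟨Λ, h1, h2⟩ := (realizes_start (d := d) (0 : Eu d)).iter ((gam (Eu d)).prod A.P) hstep N
  have h3 : Realizes d (N * (n₀ + 1 + q)) Λ := by
    have e : 0 + (n₀ + 1 + q) * N = N * (n₀ + 1 + q) := by ring
    rw [← e]
    exact h1
  obtain ⟨A', hA'⟩ := h3.algo
  refine ⟨A', fun V hV B hB => ?_⟩
  have hf : Measurable (B.indicator fun _ => (1 : ℝ)) := measurable_const.indicator hB
  have e1 : (Λ V).real B = ∫ x, (B.indicator fun _ => (1 : ℝ)) x ∂(Λ V) := by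
    rw [integral_indicator_const _ hB, smul_eq_mul, mul_one]
  rw [hA' V hV, e1, h2 V hV _ hf ⟨1, fun x => ?_⟩, integral_dirac]
  · rfl
  · by_cases hx : x ∈ B
    · rw [indicator_of_mem hx]; norm_num
    · rw [indicator_of_notMem hx]; norm_num

end H300

end Vale.Agent.P347
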